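import Crest.Agent.R169.P3e
import Crest.Agent.R169.Defs
import Crest.Agent.R169.C.Slope
import Crest.Agent.R169.Bridge

-- ▼ part R169/P3
section

/-!
# Row 169, P3: `Crest.Agent.R169.exists_resol` (length one resolution), proved in `P3e`.
-/
end

-- ▼ part R169/C/Calc
section

/-! Row 169, part C: the abstract degree calculus (morphism inequality, chains) behind (C4), (C5). -/

set_option autoImplicit false
set_option linter.unusedSectionVars false

namespace Crest.Agent.R169.SL

open Module Submodule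

section RN

/-- rank-nullity restricted to a submodule -/
lemma finrank_map_add_inf_ker {k M N : Type*} [Field k] [AddCommGroup M] [Module k M]
    [AddCommGroup N] [Module k N] (f : M →ₗ[k] N) (A : Submodule k M) [Module.Finite k A] :
    finrank k (A.map f) + finrank k (A ⊓ LinearMap.ker f : Submodule k M) = finrank k A := by
  have h := LinearMap.finrank_range_add_finrank_ker (f.domRestrict A)
  rw [LinearMap.range_domRestrict] at h
  rw [← h]
  congr 1
  rw [LinearMap.ker_domRestrict]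
  have e : (A ⊓ LinearMap.ker f : Submodule k M)
      = (((LinearMap.ker f).submoduleOf A).map A.subtype) := by
    ext x
    simp [Submodule.submoduleOf]
  rw [e]
  exact (LinearEquiv.finrank_eq (Submodule.equivMapOfInjective A.subtype
    (Submodule.injective_subtype A) _)).symm

end RN

section Calc

variable {k K V : Type} [Field k] [Field K] [Algebra k K] [AddCommGroup V] [Module k V]
  [Module K V] [IsScalarTower k K V]

/-- `W` is a family all of whose intersections with `K`-subspaces have a Hilbert polynomial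
(`W` spans `V`). -/
structure Hilb (W : ℤ → Submodule k V) (β γ : Submodule K V → ℚ) : Prop where
  fin : ∀ m, Module.Finite k (W m)
  hp : ∀ Y : Submodule K V, HasHP (interU W Y) (finrank K Y) (β Y) (γ Y)

/-- comparison of two quadratic polynomials with the same leading coefficient -/
lemma le_of_eventually_quad {r b₁ c₁ b₂ c₂ : ℚ} {m₀ : ℤ}
    (h : ∀ m : ℤ, m₀ ≤ m → r / 2 * (m : ℚ) ^ 2 + b₁ * m + c₁ ≤ r / 2 * (m : ℚ) ^ 2 + b₂ * m + c₂) :
    b₁ ≤ b₂ := by
  by_contra hlt
  push Not at hlt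
  obtain ⟨N, hN⟩ := exists_nat_gt ((c₂ - c₁) / (b₁ - b₂))
  have hpos : 0 < b₁ - b₂ := sub_pos.2 hlt
  rw [div_lt_iff₀ hpos] at hN
  have h1 := h (max m₀ N) (le_max_left _ _)
  have h2 : (N : ℚ) ≤ ((max m₀ N : ℤ) : ℚ) := by exact_mod_cast le_max_right m₀ (N : ℤ)
  nlinarith

/-- the kernel `{s ∈ S | θ s ∈ Z}` of an additive map `S → V/Z` -/
def kerS (S Z : Submodule K V) (θ : V →+ V)
    (hlin : ∀ (a : K), ∀ s ∈ S, θ (a • s) - a • θ s ∈ Z) : Submodule K V where
  carrier := {s | s ∈ S ∧ θ s ∈ Z}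
  zero_mem' := by simp
  add_mem' := by
    rintro a b ⟨ha, ha'⟩ ⟨hb, hb'⟩
    exact ⟨S.add_mem ha hb, by rw [map_add]; exact Z.add_mem ha' hb'⟩
  smul_mem' := by
    rintro c x ⟨hx, hx'⟩
    refine ⟨S.smul_mem _ hx, ?_⟩
    have := Z.add_mem (hlin c x hx) (Z.smul_mem c hx')
    simpa using this

/-- the image `θ(S) + Z` -/
def imS (S Z : Submodule K V) (θ : V →+ V)
    (hlin : ∀ (a : K), ∀ s ∈ S, θ (a • s) - a • θ s ∈ Z) : Submodule K V where
  carrier := {y | ∃ s ∈ S, y - θ s ∈ Z}
  zero_mem' := ⟨0, S.zero_mem, by simp⟩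
  add_mem' := by
    rintro a b ⟨s, hs, ha⟩ ⟨t, ht, hb⟩
    refine ⟨s + t, S.add_mem hs ht, ?_⟩
    have := Z.add_mem ha hb
    rw [map_add]
    convert this using 1
    abel
  smul_mem' := by
    rintro c x ⟨s, hs, hx⟩
    refine ⟨c • s, S.smul_mem _ hs, ?_⟩
    have := Z.sub_mem (Z.smul_mem c hx) (hlin c s hs)
    convert this using 1
    rw [smul_sub]
    abel

variable {S Z : Submodule K V} {θ : V →+ V}
  {hlin : ∀ (a : K), ∀ s ∈ S, θ (a • s) - a • θ s ∈ Z}

lemma mem_kerS {x : V} : x ∈ kerS S Z θ hlin ↔ x ∈ S ∧ θ x ∈ Z := Iff.rfl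


lemma kerS_le : kerS S Z θ hlin ≤ S := fun _ h => h.1

lemma le_imS : Z ≤ imS S Z θ hlin := fun x hx => ⟨0, S.zero_mem, by simpa using hx⟩

lemma map_mem_imS {s : V} (hs : s ∈ S) : θ s ∈ imS S Z θ hlin := ⟨s, hs, by simp⟩

lemma imS_le {X : Submodule K V} (h1 : Z ≤ X) (h2 : ∀ s ∈ S, θ s ∈ X) : imS S Z θ hlin ≤ X := by
  rintro x ⟨s, hs, hx⟩
  have := X.add_mem (h1 hx) (h2 s hs)
  simpa using this

variable (S Z θ hlin) in
/-- the `K`-linear map `S → V/Z` -/
def barS : S →ₗ[K] (V ⧸ Z) where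
  toFun s := Z.mkQ (θ s)
  map_add' a b := by simp
  map_smul' a b := by
    have h := hlin a b b.2
    rw [← Submodule.ker_mkQ Z, LinearMap.mem_ker, map_sub, sub_eq_zero] at h
    simp only [Submodule.coe_smul, RingHom.id_apply]
    rw [h, map_smul]

lemma barS_apply (s : S) : barS S Z θ hlin s = Z.mkQ (θ s) := rfl

lemma ker_barS_map : (LinearMap.ker (barS S Z θ hlin)).map S.subtype = kerS S Z θ hlin := by
  ext x
  simp only [Submodule.mem_map, LinearMap.mem_ker, barS_apply, Submodule.mkQ_apply,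
    Submodule.Quotient.mk_eq_zero, Submodule.subtype_apply, Subtype.exists, exists_and_right,
    exists_eq_right, mem_kerS]
  constructor
  · rintro ⟨h, h'⟩; exact ⟨h, h'⟩
  · rintro ⟨h, h'⟩; exact ⟨h, h'⟩

lemma range_barS : LinearMap.range (barS S Z θ hlin) = (imS S Z θ hlin).map Z.mkQ := by
  ext x
  constructor
  · rintro ⟨s, rfl⟩
    exact ⟨θ s, map_mem_imS s.2, rfl⟩
  · rintro ⟨y, ⟨s, hs, hy⟩, rfl⟩
    refine ⟨⟨s, hs⟩, ?_⟩
    rw [← Submodule.ker_mkQ Z, LinearMap.mem_ker, map_sub, sub_eq_zero] at hy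
    rw [barS_apply]
    exact hy.symm

variable [Module.Finite K V]

variable (hlin) in
/-- ranks in the morphism step -/
lemma rank_step : (finrank K (imS S Z θ hlin) : ℚ) - finrank K Z
    = finrank K S - finrank K (kerS S Z θ hlin) := by
  have h1 := LinearMap.finrank_range_add_finrank_ker (barS S Z θ hlin)
  have h2 : finrank K (LinearMap.ker (barS S Z θ hlin)) = finrank K (kerS S Z θ hlin) := by
    rw [← ker_barS_map (hlin := hlin)]
    exact (LinearEquiv.finrank_eq (Submodule.equivMapOfInjective S.subtype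
      (Submodule.injective_subtype S) _))
  have h3 := finrank_map_add_inf_ker (k := K) Z.mkQ (imS S Z θ hlin)
  rw [Submodule.ker_mkQ, inf_eq_right.2 (le_imS (hlin := hlin)), ← range_barS (hlin := hlin)] at h3
  rw [h2] at h1
  have h4 : (finrank K (LinearMap.range (barS S Z θ hlin)) : ℚ) + finrank K (kerS S Z θ hlin)
    = finrank K S := by exact_mod_cast h1
  have h5 : (finrank K (LinearMap.range (barS S Z θ hlin)) : ℚ) + finrank K Z
    = finrank K (imS S Z θ hlin) := by exact_mod_cast h3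
  linarith

variable {W : ℤ → Submodule k V} {β γ : Submodule K V → ℚ}

lemma Hilb.finite_interU (hW : Hilb W β γ) (Y : Submodule K V) (m : ℤ) :
    Module.Finite k (interU W Y m) := by
  have := hW.fin m
  exact Submodule.finiteDimensional_of_le (inf_le_left : W m ⊓ Y.restrictScalars k ≤ W m)

/-- dimension inequality in one degree -/
lemma dim_step (hW : Hilb W β γ) (e m : ℤ) (hdeg : ∀ s ∈ S, s ∈ W m → θ s ∈ W (m + e)) :
    (finrank k (interU W S m) : ℚ) - finrank k (interU W (kerS S Z θ hlin) m)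
      ≤ finrank k (interU W (imS S Z θ hlin) (m + e)) - finrank k (interU W Z (m + e)) := by
  classical
  have := hW.finite_interU S m
  have := hW.finite_interU (imS S Z θ hlin) (m + e)
  -- the source
  let ι : S →ₗ[k] V := S.subtype.restrictScalars k
  have hι : Function.Injective ι := Subtype.val_injective
  let A : Submodule k S := (interU W S m).comap ι
  have hA : A.map ι = interU W S m := by
    rw [Submodule.map_comap_eq, inf_eq_right]
    rintro x ⟨_, hx⟩
    exact ⟨⟨x, hx⟩, rfl⟩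
  have eA : A ≃ₗ[k] interU W S m :=
    (Submodule.equivMapOfInjective ι hι A).trans (LinearEquiv.ofEq _ _ hA)
  have : Module.Finite k A := Module.Finite.equiv eA.symm
  let f : S →ₗ[k] (V ⧸ Z) := (barS S Z θ hlin).restrictScalars k
  have h1 := finrank_map_add_inf_ker f A
  have hker : (A ⊓ LinearMap.ker f).map ι = interU W (kerS S Z θ hlin) m := by
    ext x
    constructor
    · rintro ⟨s, ⟨hs1, hs2⟩, rfl⟩
      refine ⟨hs1.1, ?_⟩
      refine ⟨s.2, ?_⟩
      have h : (barS S Z θ hlin) s = 0 := hs2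
      rw [barS_apply] at h
      show θ (s : V) ∈ Z
      simpa using h
    · rintro ⟨hx1, hx2⟩
      have hx3 : x ∈ kerS S Z θ hlin := hx2
      refine ⟨⟨x, hx3.1⟩, ⟨⟨hx1, hx3.1⟩, ?_⟩, rfl⟩
      show (barS S Z θ hlin) _ = 0
      rw [barS_apply]
      simpa using hx3.2
  have e2 : finrank k (A ⊓ LinearMap.ker f : Submodule k S)
      = finrank k (interU W (kerS S Z θ hlin) m) := by
    rw [← hker]
    exact (LinearEquiv.finrank_eq (Submodule.equivMapOfInjective ι hι _))
  -- the target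
  have h2 := finrank_map_add_inf_ker (Z.mkQ.restrictScalars k)
    (interU W (imS S Z θ hlin) (m + e))
  have hker2 : (interU W (imS S Z θ hlin) (m + e) ⊓ LinearMap.ker (Z.mkQ.restrictScalars k))
      = interU W Z (m + e) := by
    ext x
    constructor
    · rintro ⟨⟨hx1, _⟩, hx3⟩
      refine ⟨hx1, ?_⟩
      have h : Z.mkQ x = 0 := hx3
      simpa using h
    · rintro ⟨hx1, hx2⟩
      refine ⟨⟨hx1, le_imS (hlin := hlin) hx2⟩, ?_⟩
      show Z.mkQ x = 0
      simpa using hx2
  rw [hker2] at h2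
  have hle : A.map f ≤ (interU W (imS S Z θ hlin) (m + e)).map (Z.mkQ.restrictScalars k) := by
    rintro _ ⟨s, hs, rfl⟩
    exact ⟨θ s, ⟨hdeg s s.2 hs.1, map_mem_imS (hlin := hlin) s.2⟩, rfl⟩
  have h3 := Submodule.finrank_mono hle
  have e1 : finrank k A = finrank k (interU W S m) := LinearEquiv.finrank_eq eA
  rw [e1, e2] at h1
  have h1' : (finrank k (A.map f) : ℚ) + finrank k (interU W (kerS S Z θ hlin) m)
    = finrank k (interU W S m) := by exact_mod_cast h1
  have h2' : (finrank k ((interU W (imS S Z θ hlin) (m + e)).map (Z.mkQ.restrictScalars k)) : ℚ)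
    + finrank k (interU W Z (m + e)) = finrank k (interU W (imS S Z θ hlin) (m + e)) := by
    exact_mod_cast h2
  have h3' : (finrank k (A.map f) : ℚ) ≤
    finrank k ((interU W (imS S Z θ hlin) (m + e)).map (Z.mkQ.restrictScalars k)) := by
    exact_mod_cast h3
  linarith

/-- the morphism inequality -/
theorem deg_step (hW : Hilb W β γ) (e : ℤ)
    (hdeg : ∀ m, ∀ s ∈ S, s ∈ W m → θ s ∈ W (m + e)) :
    β S - β (kerS S Z θ hlin) ≤ β (imS S Z θ hlin) - β Z
      + e * ((finrank K (imS S Z θ hlin) : ℚ) - finrank K Z) := by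
  obtain ⟨m1, h1⟩ := hW.hp S
  obtain ⟨m2, h2⟩ := hW.hp (kerS S Z θ hlin)
  obtain ⟨m3, h3⟩ := hW.hp (imS S Z θ hlin)
  obtain ⟨m4, h4⟩ := hW.hp Z
  have hr := rank_step hlin
  set r : ℚ := (finrank K (imS S Z θ hlin) : ℚ) - finrank K Z with hrdef
  refine le_of_eventually_quad (r := r) (m₀ := max (max m1 m2) (max m3 m4 - e))
    (c₁ := γ S - γ (kerS S Z θ hlin))
    (c₂ := r / 2 * (e : ℚ) ^ 2 + (β (imS S Z θ hlin) - β Z) * e
      + (γ (imS S Z θ hlin) - γ Z)) ?_
  intro m hm
  have hm1 : m1 ≤ m := le_trans (le_max_left _ _) (le_trans (le_max_left _ _) hm)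
  have hm2 : m2 ≤ m := le_trans (le_max_right _ _) (le_trans (le_max_left _ _) hm)
  have hm' : max m3 m4 ≤ m + e := by
    have := le_trans (le_max_right _ _) hm
    linarith
  have hm3 : m3 ≤ m + e := le_trans (le_max_left _ _) hm'
  have hm4 : m4 ≤ m + e := le_trans (le_max_right _ _) hm'
  have hd := dim_step (hlin := hlin) hW e m (hdeg m)
  rw [h1 m hm1, h2 m hm2, h3 (m + e) hm3, h4 (m + e) hm4] at hd
  push_cast at hd
  have e1 : (finrank K S : ℚ) = r + finrank K (kerS S Z θ hlin) := by linarith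
  have e2 : (finrank K (imS S Z θ hlin) : ℚ) = r + finrank K Z := by linarith
  rw [e1, e2] at hd
  linarith

/-- all quotients of the sub-quotient `[Z, Y]` have slope at least `σ` -/
def QB (β : Submodule K V → ℚ) (Z Y : Submodule K V) (σ : ℚ) : Prop :=
  ∀ X, Z ≤ X → X ≤ Y → ((finrank K Y : ℚ) - finrank K X) * σ ≤ β Y - β X

/-- all subs of the sub-quotient `[Z, Y]` have slope at most `σ` -/
def SB (β : Submodule K V → ℚ) (Z Y : Submodule K V) (σ : ℚ) : Prop :=
  ∀ X, Z ≤ X → X ≤ Y → β X - β Z ≤ ((finrank K X : ℚ) - finrank K Z) * σ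

/-- chain lemma, quotient side -/
theorem QB_step (hW : Hilb W β γ) {S' S Z Y : Submodule K V} {σ : ℚ} {e : ℤ}
    (hS'S : S' ≤ S) (hQ : QB β S' S σ)
    (ops : List (V →+ V))
    (hlin : ∀ θ ∈ ops, ∀ (a : K), ∀ s ∈ S, θ (a • s) - a • θ s ∈ Z)
    (hS' : ∀ θ ∈ ops, ∀ s ∈ S', θ s ∈ Z)
    (hdeg : ∀ θ ∈ ops, ∀ m, ∀ s ∈ S, s ∈ W m → θ s ∈ W (m + e))
    (hY : ∀ θ ∈ ops, ∀ s ∈ S, θ s ∈ Y)
    (hmin : ∀ X : Submodule K V, Z ≤ X → (∀ θ ∈ ops, ∀ s ∈ S, θ s ∈ X) → Y ≤ X) :
    QB β Z Y (σ - e) := by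
  have key : ∀ l : List (V →+ V), (∀ θ ∈ l, θ ∈ ops) → ∀ X : Submodule K V, Z ≤ X → X ≤ Y →
      ∃ X' : Submodule K V, X ≤ X' ∧ X' ≤ Y ∧ (∀ θ ∈ l, ∀ s ∈ S, θ s ∈ X') ∧
        ((finrank K X' : ℚ) - finrank K X) * (σ - e) ≤ β X' - β X := by
    intro l
    induction l with
    | nil =>
      intro _ X _ hXY
      exact ⟨X, le_rfl, hXY, by simp, by simp⟩
    | cons θ l ih =>
      intro hl X hZX hXY
      have hθ : θ ∈ ops := hl θ (by simp)
      have hlin' : ∀ (a : K), ∀ s ∈ S, θ (a • s) - a • θ s ∈ X :=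
        fun a s hs => hZX (hlin θ hθ a s hs)
      have hstep := deg_step (hlin := hlin') hW e (hdeg θ hθ)
      have hrank := rank_step hlin'
      have hker : S' ≤ kerS S X θ hlin' := fun s hs => ⟨hS'S hs, hZX (hS' θ hθ s hs)⟩
      have hq := hQ (kerS S X θ hlin') hker kerS_le
      have hX1 : imS S X θ hlin' ≤ Y := imS_le hXY (hY θ hθ)
      obtain ⟨X', h1, h2, h3, h4⟩ := ih (fun θ' h' => hl θ' (by simp [h']))
        (imS S X θ hlin') (hZX.trans le_imS) hX1
      refine ⟨X', le_imS.trans h1, h2, ?_, ?_⟩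
      · intro θ' hθ' s hs
        rcases List.mem_cons.1 hθ' with rfl | h'
        · exact h1 (map_mem_imS hs)
        · exact h3 θ' h' s hs
      · rw [← hrank] at hq
        linarith
  intro X hZX hXY
  obtain ⟨X', h1, h2, h3, h4⟩ := key ops (fun _ h => h) X hZX hXY
  have : X' = Y := le_antisymm h2 (hmin X' (hZX.trans h1) h3)
  rw [this] at h4
  exact h4

/-- chain lemma, sub side -/
theorem SB_step (hW : Hilb W β γ) {S' S Z Z1 : Submodule K V} {σ : ℚ} {e : ℤ}
    (hQ : SB β Z Z1 σ) (hZZ : Z ≤ Z1)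
    (ops : List (V →+ V))
    (hlin : ∀ θ ∈ ops, ∀ (a : K), ∀ s ∈ S, θ (a • s) - a • θ s ∈ Z)
    (hS' : ∀ θ ∈ ops, ∀ s ∈ S', θ s ∈ Z)
    (hdeg : ∀ θ ∈ ops, ∀ m, ∀ s ∈ S, s ∈ W m → θ s ∈ W (m + e))
    (hZ1 : ∀ θ ∈ ops, ∀ s ∈ S, θ s ∈ Z1)
    (hmax : ∀ s ∈ S, (∀ θ ∈ ops, θ s ∈ Z) → s ∈ S') :
    SB β S' S (σ + e) := by
  have key : ∀ l : List (V →+ V), (∀ θ ∈ l, θ ∈ ops) → ∀ X : Submodule K V, S' ≤ X → X ≤ S →
      ∃ X' : Submodule K V, X' ≤ X ∧ S' ≤ X' ∧ (∀ θ ∈ l, ∀ s ∈ X', θ s ∈ Z) ∧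
        β X - β X' ≤ ((finrank K X : ℚ) - finrank K X') * (σ + e) := by
    intro l
    induction l with
    | nil =>
      intro _ X hSX _
      exact ⟨X, le_rfl, hSX, by simp, by simp⟩
    | cons θ l ih =>
      intro hl X hSX hXS
      have hθ : θ ∈ ops := hl θ (by simp)
      have hlin' : ∀ (a : K), ∀ s ∈ X, θ (a • s) - a • θ s ∈ Z :=
        fun a s hs => hlin θ hθ a s (hXS hs)
      have hstep := deg_step (hlin := hlin') hW e (fun m s hs => hdeg θ hθ m s (hXS hs))
      have hrank := rank_step hlin'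
      have hq := hQ (imS X Z θ hlin') le_imS (imS_le hZZ (fun s hs => hZ1 θ hθ s (hXS hs)))
      have hk : S' ≤ kerS X Z θ hlin' := fun s hs => ⟨hSX hs, hS' θ hθ s hs⟩
      obtain ⟨X', h1, h2, h3, h4⟩ := ih (fun θ' h' => hl θ' (by simp [h']))
        (kerS X Z θ hlin') hk (kerS_le.trans hXS)
      refine ⟨X', h1.trans kerS_le, h2, ?_, ?_⟩
      · intro θ' hθ' s hs
        rcases List.mem_cons.1 hθ' with rfl | h'
        · exact (h1 hs).2
        · exact h3 θ' h' s hs
      · rw [hrank] at hq hstep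
        linarith
  intro X hSX hXS
  obtain ⟨X', h1, h2, h3, h4⟩ := key ops (fun _ h => h) X hSX hXS
  have : X' = S' := le_antisymm
    (fun s hs => hmax s (hXS (h1 hs)) (fun θ hθ => h3 θ hθ s hs)) h2
  rw [this] at h4
  exact h4

end Calc

end Crest.Agent.R169.SL
end

-- ▼ part R169/C/Chain
section

/-! Row 169, part C: the two slope estimates (C4), (C5) in abstract form. -/

set_option autoImplicit false
set_option linter.unusedSectionVars false

namespace Crest.Agent.R169.SL

open Module Submodule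

section Extremal

/-- a function with values in `(1/N)ℤ` bounded above attains its maximum -/
lemma exists_max_of_discrete {α : Type*} [Nonempty α] (f : α → ℚ) (N : ℕ) (hN : 0 < N)
    (hint : ∀ a, ∃ z : ℤ, (N : ℚ) * f a = z) (B : ℚ) (hb : ∀ a, f a ≤ B) :
    ∃ a₀, ∀ a, f a ≤ f a₀ := by
  classical
  have hN' : (0 : ℚ) < N := by exact_mod_cast hN
  obtain ⟨a⟩ := ‹Nonempty α›
  obtain ⟨z0, hz0⟩ := hint a
  have hbd : ∃ b : ℤ, ∀ z : ℤ, (∃ a, (N : ℚ) * f a = z) → z ≤ b := by
    refine ⟨⌈(N : ℚ) * B⌉, ?_⟩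
    rintro z ⟨a, ha⟩
    have h1 : (z : ℚ) ≤ N * B := by
      rw [← ha]
      exact mul_le_mul_of_nonneg_left (hb a) hN'.le
    have h2 : (z : ℚ) ≤ (⌈(N : ℚ) * B⌉ : ℤ) := h1.trans (Int.le_ceil _)
    exact_mod_cast h2
  obtain ⟨z, ⟨a₀, ha₀⟩, hz⟩ := Int.exists_greatest_of_bdd hbd ⟨z0, a, hz0⟩
  refine ⟨a₀, fun a' => ?_⟩
  obtain ⟨z', hz'⟩ := hint a'
  have h1 := hz z' ⟨a', hz'⟩
  have h2 : (z' : ℚ) ≤ z := by exact_mod_cast h1
  rw [← ha₀, ← hz'] at h2
  exact le_of_mul_le_mul_left h2 hN'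

end Extremal

section Chain

variable {k K V : Type} [Field k] [Field K] [Algebra k K] [AddCommGroup V] [Module k V]
  [Module K V] [IsScalarTower k K V] [Module.Finite K V]
variable {W : ℤ → Submodule k V} {β γ : Submodule K V → ℚ}

lemma two_b_int {k V : Type} [Field k] [AddCommGroup V] [Module k V]
    {E : ℤ → Submodule k V} {n : ℕ} {b c : ℚ} (h : HasHP E n b c) : ∃ z : ℤ, 2 * b = z := by
  obtain ⟨m₀, h⟩ := h
  have h1 := h m₀ le_rfl
  have h2 := h (m₀ + 1) (by linarith)
  refine ⟨2 * ((finrank k (E (m₀ + 1)) : ℤ) - finrank k (E m₀)) - 2 * n * m₀ - n, ?_⟩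
  push_cast at h2 ⊢
  linarith

lemma Hilb.two_int (hW : Hilb W β γ) (Y : Submodule K V) : ∃ z : ℤ, 2 * β Y = z :=
  two_b_int (hW.hp Y)

lemma Hilb.bot (hW : Hilb W β γ) : β ⊥ = 0 := by
  obtain ⟨m₀, h⟩ := hW.hp ⊥
  have h0 : ∀ m, (finrank k (interU W (⊥ : Submodule K V) m) : ℚ) = 0 := by
    intro m
    have : interU W (⊥ : Submodule K V) m = ⊥ := by
      simp [interU]
    rw [this]
    simp
  have h1 := h m₀ le_rfl
  have h2 := h (m₀ + 1) (by linarith)
  rw [h0, finrank_bot] at h1 h2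
  push_cast at h2 h1
  linarith

/-- the subspace of maximal slope -/
lemma Hilb.exists_max (hW : Hilb W β γ) (B : ℚ) (hB : ∀ Y, β Y ≤ B)
    (hV : 0 < finrank K V) :
    ∃ (S : Submodule K V) (σ : ℚ), 0 < finrank K S ∧ β S = finrank K S * σ ∧
      ∀ Y : Submodule K V, β Y ≤ finrank K Y * σ := by
  classical
  let α := {S : Submodule K V // 0 < finrank K S}
  have : Nonempty α := ⟨⟨⊤, by rw [finrank_top]; exact hV⟩⟩
  let n := finrank K V
  have hdvd : ∀ a : α, ∃ c : ℕ, (n.factorial : ℚ) = finrank K a.1 * c := by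
    intro a
    obtain ⟨c, hc⟩ := Nat.dvd_factorial a.2 (Submodule.finrank_le a.1)
    exact ⟨c, by exact_mod_cast hc⟩
  obtain ⟨a₀, ha₀⟩ := exists_max_of_discrete (fun a : α => β a.1 / finrank K a.1)
    (2 * n.factorial) (by positivity) (by
      intro a
      obtain ⟨c, hc⟩ := hdvd a
      obtain ⟨z, hz⟩ := hW.two_int a.1
      have hpos : (0 : ℚ) < finrank K a.1 := by exact_mod_cast a.2
      refine ⟨z * c, ?_⟩
      push_cast
      rw [hc, ← hz]
      field_simp) |B| (by
      intro a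
      have hpos : (1 : ℚ) ≤ finrank K a.1 := by exact_mod_cast a.2
      rw [div_le_iff₀ (by linarith)]
      have h1 := hB a.1
      have h2 := le_abs_self B
      have h3 := abs_nonneg B
      nlinarith)
  refine ⟨a₀.1, β a₀.1 / finrank K a₀.1, a₀.2, ?_, ?_⟩
  · have hpos : (0 : ℚ) < finrank K a₀.1 := by exact_mod_cast a₀.2
    field_simp
  · intro Y
    rcases Nat.eq_zero_or_pos (finrank K Y) with h0 | hpos
    · have : Y = ⊥ := Submodule.finrank_eq_zero.1 h0
      rw [this, hW.bot]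
      simp
    · have h := ha₀ ⟨Y, hpos⟩
      have hpos' : (0 : ℚ) < finrank K Y := by exact_mod_cast hpos
      simp only at h
      rw [div_le_iff₀ hpos'] at h
      linarith

/-- the quotient of minimal slope -/
lemma Hilb.exists_min (hW : Hilb W β γ) (B : ℚ) (hB : ∀ Y, β Y ≤ B)
    (hV : 0 < finrank K V) :
    ∃ (S : Submodule K V) (σ : ℚ), finrank K S < finrank K V ∧
      β ⊤ - β S = ((finrank K V : ℚ) - finrank K S) * σ ∧
      ∀ Y : Submodule K V, ((finrank K V : ℚ) - finrank K Y) * σ ≤ β ⊤ - β Y := by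
  classical
  let α := {S : Submodule K V // finrank K S < finrank K V}
  have : Nonempty α := ⟨⟨⊥, by rw [finrank_bot]; exact hV⟩⟩
  let n := finrank K V
  have hdvd : ∀ a : α, ∃ c : ℕ, (n.factorial : ℚ) = ((finrank K V : ℚ) - finrank K a.1) * c := by
    intro a
    obtain ⟨c, hc⟩ := Nat.dvd_factorial (Nat.sub_pos_of_lt a.2) (Nat.sub_le _ (finrank K a.1))
    refine ⟨c, ?_⟩
    rw [← Nat.cast_sub a.2.le]
    exact_mod_cast hc
  obtain ⟨a₀, ha₀⟩ := exists_max_of_discrete
    (fun a : α => -((β ⊤ - β a.1) / ((finrank K V : ℚ) - finrank K a.1)))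
    (2 * n.factorial) (by positivity) (by
      intro a
      obtain ⟨c, hc⟩ := hdvd a
      obtain ⟨z, hz⟩ := hW.two_int a.1
      obtain ⟨z', hz'⟩ := hW.two_int ⊤
      have hpos : (0 : ℚ) < (finrank K V : ℚ) - finrank K a.1 := by
        have : (finrank K a.1 : ℚ) < finrank K V := by exact_mod_cast a.2
        linarith
      refine ⟨(z - z') * c, ?_⟩
      push_cast
      rw [hc, ← hz, ← hz']
      field_simp
      ring) (|B| + |β ⊤|) (by
      intro a
      have hpos : (1 : ℚ) ≤ (finrank K V : ℚ) - finrank K a.1 := by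
        have : (finrank K a.1 : ℚ) + 1 ≤ finrank K V := by exact_mod_cast a.2
        linarith
      rw [← neg_div, div_le_iff₀ (by linarith)]
      have h1 := hB a.1
      have h2 := le_abs_self B
      have h3 := abs_nonneg B
      have h4 := neg_abs_le (β (⊤ : Submodule K V))
      have h5 := abs_nonneg (β (⊤ : Submodule K V))
      nlinarith)
  have hpos₀ : (0 : ℚ) < (finrank K V : ℚ) - finrank K a₀.1 := by
    have : (finrank K a₀.1 : ℚ) < finrank K V := by exact_mod_cast a₀.2
    linarith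
  refine ⟨a₀.1, (β ⊤ - β a₀.1) / ((finrank K V : ℚ) - finrank K a₀.1), a₀.2, ?_, ?_⟩
  · field_simp
  · intro Y
    rcases (Submodule.finrank_le Y).lt_or_eq with hlt | heq
    · have h := ha₀ ⟨Y, hlt⟩
      have hpos' : (0 : ℚ) < (finrank K V : ℚ) - finrank K Y := by
        have : (finrank K Y : ℚ) < finrank K V := by exact_mod_cast hlt
        linarith
      simp only at h
      rw [neg_le_neg_iff, le_div_iff₀ hpos'] at h
      linarith
    · have : Y = ⊤ := Submodule.eq_top_of_finrank_eq heq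
      rw [this, finrank_top]
      simp

variable {Q : Type} [Field Q] [Algebra K Q] [Module Q V] [IsScalarTower K Q V]
  [Module.Finite Q V]

/-- multiplication by an element of `Q` as an additive map -/
def smulHom (V : Type) {Q : Type} [Field Q] [AddCommGroup V] [Module Q V] (q : Q) : V →+ V where
  toFun x := q • x
  map_zero' := smul_zero q
  map_add' := smul_add q

@[simp] lemma smulHom_apply (q : Q) (x : V) : smulHom V q x = q • x := rfl

/-- `X` contains all `t • s`, `t` in a `K`-spanning set of `Q`, hence `q • s` for all `q`. -/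
lemma smul_mem_of_span {ts : Finset Q} (hts : Submodule.span K (ts : Set Q) = ⊤)
    (X : Submodule K V) (s : V) (h : ∀ t ∈ ts, t • s ∈ X) (q : Q) : q • s ∈ X := by
  have hq : q ∈ Submodule.span K (ts : Set Q) := by rw [hts]; trivial
  induction hq using Submodule.span_induction with
  | mem x hx => exact h x hx
  | zero => rw [zero_smul]; exact X.zero_mem
  | add x y _ _ hx hy => rw [add_smul]; exact X.add_mem hx hy
  | smul a x _ hx => rw [smul_assoc]; exact X.smul_mem a hx

/-- the first step of (C4) -/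
lemma QB_span (hW : Hilb W β γ) {ts : Finset Q} (hts : Submodule.span K (ts : Set Q) = ⊤)
    {c1 : ℤ} (hdt : ∀ t ∈ ts, ∀ m, ∀ w ∈ W m, t • w ∈ W (m + c1)) {S : Submodule K V} {σ : ℚ}
    (hQ : QB β ⊥ S σ) :
    QB β ⊥ ((Submodule.span Q (S : Set V)).restrictScalars K) (σ - c1) := by
  refine QB_step hW (S' := ⊥) (S := S) (Z := ⊥) bot_le hQ
    (ts.toList.map (fun t => smulHom V t)) ?_ ?_ ?_ ?_ ?_
  · intro θ hθ a s _
    obtain ⟨t, _, rfl⟩ := List.mem_map.1 hθ
    simp only [smulHom_apply]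
    rw [smul_comm, sub_self]
    exact Submodule.zero_mem _
  · intro θ hθ s hs
    rw [(Submodule.mem_bot K).1 hs, map_zero]
    exact Submodule.zero_mem _
  · intro θ hθ m s _ hs
    obtain ⟨t, ht, rfl⟩ := List.mem_map.1 hθ
    exact hdt t (Finset.mem_toList.1 ht) m s hs
  · intro θ hθ s hs
    obtain ⟨t, ht, rfl⟩ := List.mem_map.1 hθ
    exact Submodule.smul_mem _ t (Submodule.subset_span hs)
  · intro X _ hX x hx
    have hx' : x ∈ Submodule.span Q (S : Set V) := hx
    have key : ∀ q : Q, q • x ∈ X := by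
      induction hx' using Submodule.span_induction with
      | mem y hy =>
        intro q
        refine smul_mem_of_span hts X y (fun t ht => ?_) q
        exact hX (smulHom V t) (List.mem_map.2 ⟨t, Finset.mem_toList.2 ht, rfl⟩) y hy
      | zero => intro q; rw [smul_zero]; exact X.zero_mem
      | add y z hy' hz' hy hz =>
        intro q; rw [smul_add]; exact X.add_mem (hy hy' q) (hz hz' q)
      | smul a y hy' hy => intro q; rw [smul_smul]; exact hy hy' (q * a)
    simpa using key 1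

/-- the largest `Q`-subspace of a `K`-subspace -/
def coreQ (Q : Type) {K V : Type} [Field K] [Field Q] [Algebra K Q] [AddCommGroup V] [Module K V]
    [Module Q V] [IsScalarTower K Q V] (S : Submodule K V) : Submodule Q V where
  carrier := {w | ∀ q : Q, q • w ∈ S}
  zero_mem' := by intro q; rw [smul_zero]; exact S.zero_mem
  add_mem' := by intro a b ha hb q; rw [smul_add]; exact S.add_mem (ha q) (hb q)
  smul_mem' := by intro c x hx q; rw [smul_smul]; exact hx _


/-- the first step of (C5) -/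
lemma SB_core (hW : Hilb W β γ) {ts : Finset Q} (hts : Submodule.span K (ts : Set Q) = ⊤)
    {c1 : ℤ} (hdt : ∀ t ∈ ts, ∀ m, ∀ w ∈ W m, t • w ∈ W (m + c1)) {S : Submodule K V} {σ : ℚ}
    (hQ : SB β S ⊤ σ) :
    SB β ((coreQ Q S).restrictScalars K) ⊤ (σ + c1) := by
  refine SB_step hW (S' := (coreQ Q S).restrictScalars K) (S := ⊤) (Z := S) (Z1 := ⊤) hQ le_top
    (ts.toList.map (fun t => smulHom V t)) ?_ ?_ ?_ ?_ ?_
  · intro θ hθ a s _
    obtain ⟨t, _, rfl⟩ := List.mem_map.1 hθ
    simp only [smulHom_apply]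
    rw [smul_comm, sub_self]
    exact Submodule.zero_mem _
  · intro θ hθ s hs
    obtain ⟨t, _, rfl⟩ := List.mem_map.1 hθ
    exact hs t
  · intro θ hθ m s _ hs
    obtain ⟨t, ht, rfl⟩ := List.mem_map.1 hθ
    exact hdt t (Finset.mem_toList.1 ht) m s hs
  · intro θ _ s _
    trivial
  · intro s _ hs q
    refine smul_mem_of_span hts S s (fun t ht => ?_) q
    exact hs (smulHom V t) (List.mem_map.2 ⟨t, Finset.mem_toList.2 ht, rfl⟩)

variable (D : Fin 2 → (V →+ V)) (d : Fin 2 → (Q →+ Q))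

/-- `U + D_0 U + D_1 U` -/
def nextU (U : Submodule Q V) : Submodule Q V :=
  U ⊔ Submodule.span Q {x | ∃ j, ∃ w ∈ U, x = D j w}

/-- `{w ∈ U | D_0 w, D_1 w ∈ U}` -/
def prevU (hleib : ∀ j (q : Q) (w : V), D j (q • w) = q • D j w + d j q • w)
    (U : Submodule Q V) : Submodule Q V where
  carrier := {w | w ∈ U ∧ ∀ j, D j w ∈ U}
  zero_mem' := ⟨U.zero_mem, fun j => by rw [map_zero]; exact U.zero_mem⟩
  add_mem' := by
    rintro a b ⟨ha, ha'⟩ ⟨hb, hb'⟩
    exact ⟨U.add_mem ha hb, fun j => by rw [map_add]; exact U.add_mem (ha' j) (hb' j)⟩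
  smul_mem' := by
    rintro q x ⟨hx, hx'⟩
    refine ⟨U.smul_mem _ hx, fun j => ?_⟩
    rw [hleib]
    exact U.add_mem (U.smul_mem _ (hx' j)) (U.smul_mem _ hx)

variable {D d}

lemma le_nextU (U : Submodule Q V) : U ≤ nextU D U := le_sup_left

lemma D_mem_nextU {U : Submodule Q V} {w : V} (hw : w ∈ U) (j : Fin 2) : D j w ∈ nextU D U :=
  (le_sup_right : _ ≤ nextU D U) (Submodule.subset_span ⟨j, w, hw, rfl⟩)

variable (hleib : ∀ j (q : Q) (w : V), D j (q • w) = q • D j w + d j q • w)

include hleib in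
/-- the derivation step of (C4) -/
lemma QB_next (hW : Hilb W β γ) {c0 : ℤ} (hdD : ∀ j m, ∀ w ∈ W m, D j w ∈ W (m + c0))
    {S' : Submodule K V} {U : Submodule Q V} {σ : ℚ} (hS' : S' ≤ U.restrictScalars K)
    (hDS' : ∀ j, ∀ s ∈ S', D j s ∈ U)
    (hQ : QB β S' (U.restrictScalars K) σ) :
    QB β (U.restrictScalars K) ((nextU D U).restrictScalars K) (σ - c0) := by
  refine QB_step hW (S' := S') (S := U.restrictScalars K) (Z := U.restrictScalars K) hS' hQ
    [D 0, D 1] ?_ ?_ ?_ ?_ ?_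
  · intro θ hθ a s hs
    have hs' : s ∈ U := hs
    obtain ⟨j, rfl⟩ : ∃ j, θ = D j := by
      simp only [List.mem_cons, List.not_mem_nil, or_false] at hθ
      rcases hθ with rfl | rfl
      exacts [⟨0, rfl⟩, ⟨1, rfl⟩]
    have h1 : D j (a • s) - a • D j s = d j (algebraMap K Q a) • s := by
      rw [← algebraMap_smul Q a s, hleib, algebraMap_smul, add_sub_cancel_left]
    rw [h1]
    exact U.smul_mem _ hs'
  · intro θ hθ s hs
    obtain ⟨j, rfl⟩ : ∃ j, θ = D j := by
      simp only [List.mem_cons, List.not_mem_nil, or_false] at hθ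
      rcases hθ with rfl | rfl
      exacts [⟨0, rfl⟩, ⟨1, rfl⟩]
    exact hDS' j s hs
  · intro θ hθ m s _ hs
    obtain ⟨j, rfl⟩ : ∃ j, θ = D j := by
      simp only [List.mem_cons, List.not_mem_nil, or_false] at hθ
      rcases hθ with rfl | rfl
      exacts [⟨0, rfl⟩, ⟨1, rfl⟩]
    exact hdD j m s hs
  · intro θ hθ s hs
    obtain ⟨j, rfl⟩ : ∃ j, θ = D j := by
      simp only [List.mem_cons, List.not_mem_nil, or_false] at hθ
      rcases hθ with rfl | rfl
      exacts [⟨0, rfl⟩, ⟨1, rfl⟩]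
    exact D_mem_nextU (U := U) hs j
  · intro X hUX hX
    have hD : ∀ j, ∀ w ∈ U, D j w ∈ X := by
      intro j w hw
      refine hX (D j) ?_ w hw
      fin_cases j <;> simp
    have key : ∀ x ∈ Submodule.span Q {x | ∃ j, ∃ w ∈ U, x = D j w}, ∀ q : Q, q • x ∈ X := by
      intro x hx
      induction hx using Submodule.span_induction with
      | mem y hy =>
        intro q
        obtain ⟨j, w, hw, rfl⟩ := hy
        have h1 := hD j (q • w) (U.smul_mem q hw)
        rw [hleib] at h1
        have h2 : d j q • w ∈ X := hUX (U.smul_mem _ hw)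
        have h3 := X.sub_mem h1 h2
        rwa [add_sub_cancel_right] at h3
      | zero => intro q; rw [smul_zero]; exact X.zero_mem
      | add y z _ _ hy hz => intro q; rw [smul_add]; exact X.add_mem (hy q) (hz q)
      | smul a y _ hy => intro q; rw [smul_smul]; exact hy (q * a)
    intro x hx
    have hx' : x ∈ nextU D U := hx
    obtain ⟨y, hy, z, hz, rfl⟩ := Submodule.mem_sup.1 hx'
    exact X.add_mem (hUX hy) (by simpa using key z hz 1)

/-- the derivation step of (C5) -/
lemma SB_prev (hW : Hilb W β γ) {c0 : ℤ} (hdD : ∀ j m, ∀ w ∈ W m, D j w ∈ W (m + c0))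
    {Z1 : Submodule K V} {U : Submodule Q V} {σ : ℚ} (hZ1 : U.restrictScalars K ≤ Z1)
    (hDZ1 : ∀ j, ∀ s ∈ U, D j s ∈ Z1)
    (hQ : SB β (U.restrictScalars K) Z1 σ) :
    SB β ((prevU D d hleib U).restrictScalars K) (U.restrictScalars K) (σ + c0) := by
  refine SB_step hW (S' := (prevU D d hleib U).restrictScalars K) (S := U.restrictScalars K)
    (Z := U.restrictScalars K) (Z1 := Z1) hQ hZ1
    [D 0, D 1] ?_ ?_ ?_ ?_ ?_
  · intro θ hθ a s hs
    have hs' : s ∈ U := hs
    obtain ⟨j, rfl⟩ : ∃ j, θ = D j := by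
      simp only [List.mem_cons, List.not_mem_nil, or_false] at hθ
      rcases hθ with rfl | rfl
      exacts [⟨0, rfl⟩, ⟨1, rfl⟩]
    have h1 : D j (a • s) - a • D j s = d j (algebraMap K Q a) • s := by
      rw [← algebraMap_smul Q a s, hleib, algebraMap_smul, add_sub_cancel_left]
    rw [h1]
    exact U.smul_mem _ hs'
  · intro θ hθ s hs
    obtain ⟨j, rfl⟩ : ∃ j, θ = D j := by
      simp only [List.mem_cons, List.not_mem_nil, or_false] at hθ
      rcases hθ with rfl | rfl
      exacts [⟨0, rfl⟩, ⟨1, rfl⟩]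
    have hs' : s ∈ prevU D d hleib U := hs
    exact hs'.2 j
  · intro θ hθ m s _ hs
    obtain ⟨j, rfl⟩ : ∃ j, θ = D j := by
      simp only [List.mem_cons, List.not_mem_nil, or_false] at hθ
      rcases hθ with rfl | rfl
      exacts [⟨0, rfl⟩, ⟨1, rfl⟩]
    exact hdD j m s hs
  · intro θ hθ s hs
    obtain ⟨j, rfl⟩ : ∃ j, θ = D j := by
      simp only [List.mem_cons, List.not_mem_nil, or_false] at hθ
      rcases hθ with rfl | rfl
      exacts [⟨0, rfl⟩, ⟨1, rfl⟩]
    exact hDZ1 j s hs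
  · intro s hs h
    refine ⟨hs, fun j => ?_⟩
    refine h (D j) ?_
    fin_cases j <;> simp

/-- the increasing chain -/
def upChain (D : Fin 2 → (V →+ V)) (U0 : Submodule Q V) : ℕ → Submodule Q V
  | 0 => U0
  | j + 1 => nextU D (upChain D U0 j)

/-- the decreasing chain -/
def downChain (hleib : ∀ j (q : Q) (w : V), D j (q • w) = q • D j w + d j q • w)
    (U0 : Submodule Q V) : ℕ → Submodule Q V
  | 0 => U0
  | j + 1 => prevU D d hleib (downChain hleib U0 j)

lemma finrank_restrict_le {U U' : Submodule Q V} (h : U ≤ U') :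
    (finrank K (U.restrictScalars K) : ℚ) ≤ finrank K (U'.restrictScalars K) := by
  have h' : U.restrictScalars K ≤ U'.restrictScalars K := h
  exact_mod_cast Submodule.finrank_mono h'

include hleib in
/-- (C4), abstract form. -/
theorem C4_abs (hW : Hilb W β γ) (B : ℚ) (hB : ∀ Y, β Y ≤ B)
    {ts : Finset Q} (hts : Submodule.span K (ts : Set Q) = ⊤)
    {c1 c0 : ℕ} (hdt : ∀ t ∈ ts, ∀ m, ∀ w ∈ W m, t • w ∈ W (m + c1))
    (hdD : ∀ j m, ∀ w ∈ W m, D j w ∈ W (m + c0)) {τ : ℚ}
    (hτ : ∀ U : Submodule Q V, (∀ j, ∀ w ∈ U, D j w ∈ U) →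
      β (U.restrictScalars K) ≤ finrank K (U.restrictScalars K) * τ) (Y : Submodule K V) :
    β Y ≤ finrank K Y * (τ + ((finrank Q V : ℚ) - 1) * c0 + c1) := by
  rcases Nat.eq_zero_or_pos (finrank K V) with h0 | hpos
  · have hY : Y = ⊥ := by
      apply Submodule.finrank_eq_zero.1
      exact Nat.le_zero.1 (h0 ▸ Submodule.finrank_le Y)
    rw [hY, hW.bot]
    simp
  obtain ⟨S, σ, hS, hσ, hmax⟩ := hW.exists_max B hB hpos
  -- it suffices to bound σ
  suffices hfin : σ ≤ τ + ((finrank Q V : ℚ) - 1) * c0 + c1 by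
    have h1 := hmax Y
    have h2 : (0 : ℚ) ≤ finrank K Y := by positivity
    nlinarith
  have hQ0 : QB β ⊥ S σ := by
    intro X _ _
    rw [hσ]
    have := hmax X
    linarith
  set U := upChain D (Submodule.span Q (S : Set V)) with hU
  have hQ1 : QB β ⊥ ((U 0).restrictScalars K) (σ - c1) := QB_span hW hts hdt hQ0
  have hQB : ∀ j, QB β ((U j).restrictScalars K) ((U (j + 1)).restrictScalars K)
      (σ - c1 - (j + 1) * c0) := by
    intro j
    induction j with
    | zero =>
      have := QB_next hleib hW (c0 := c0) hdD (S' := ⊥) (U := U 0) bot_le (by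
        intro j s hs
        rw [(Submodule.mem_bot K).1 hs, map_zero]
        exact Submodule.zero_mem _) hQ1
      simp only [Int.cast_natCast] at this
      have e : (σ - c1 - (((0 : ℕ) : ℚ) + 1) * c0 : ℚ) = σ - c1 - c0 := by push_cast; ring
      rw [e]
      exact this
    | succ j ih =>
      have := QB_next hleib hW (c0 := c0) hdD (S' := (U j).restrictScalars K) (U := U (j + 1))
        (le_nextU (D := D) (U j)) (by
        intro i s hs
        exact D_mem_nextU (U := U j) hs i) ih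
      simp only [Int.cast_natCast] at this
      have e : (σ - c1 - (((j + 1 : ℕ) : ℚ) + 1) * c0 : ℚ) = σ - c1 - ((j : ℚ) + 1) * c0 - c0 := by
        push_cast; ring
      rw [e]
      exact this
  have hmono : ∀ j, U j ≤ U (j + 1) := fun j => le_nextU (D := D) (U j)
  have hsum : ∀ j : ℕ, (finrank K ((U j).restrictScalars K) : ℚ) * (σ - c1 - j * c0)
      ≤ β ((U j).restrictScalars K) := by
    intro j
    induction j with
    | zero =>
      have h := hQ1 ⊥ le_rfl bot_le
      rw [hW.bot, finrank_bot] at h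
      simp only [Nat.cast_zero, sub_zero, zero_mul] at h ⊢
      exact h
    | succ j ih =>
      have h := hQB j ((U j).restrictScalars K) le_rfl (hmono j)
      have hle := finrank_restrict_le (K := K) (hmono j)
      have h0 : (0 : ℚ) ≤ finrank K ((U j).restrictScalars K) := by positivity
      have hc0 : (0 : ℚ) ≤ c0 := by positivity
      have := mul_nonneg h0 hc0
      push_cast
      nlinarith
  -- stabilisation
  have hU0 : 0 < finrank Q (U 0) := by
    obtain ⟨x, hx, hx0⟩ : ∃ x ∈ S, x ≠ 0 := by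
      by_contra hcon
      push Not at hcon
      have : S = ⊥ := (Submodule.eq_bot_iff S).2 hcon
      rw [this, finrank_bot] at hS
      exact lt_irrefl _ hS
    refine Nat.pos_of_ne_zero (fun h => ?_)
    have h1 := Submodule.finrank_eq_zero.1 h
    have h2 : x ∈ U 0 := Submodule.subset_span hx
    rw [h1] at h2
    exact hx0 ((Submodule.mem_bot Q).1 h2)
  obtain ⟨J, hJR, hJ⟩ : ∃ J, J + 1 ≤ finrank Q V ∧ U (J + 1) = U J := by
    by_contra hcon
    push Not at hcon
    have : ∀ j, j ≤ finrank Q V → j + 1 ≤ finrank Q (U j) := by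
      intro j
      induction j with
      | zero => intro _; exact hU0
      | succ j ih =>
        intro hj
        have h1 := ih (by omega)
        have h2 : U j < U (j + 1) := lt_of_le_of_ne (hmono j) (Ne.symm (hcon j hj))
        have h3 := Submodule.finrank_lt_finrank_of_lt h2
        omega
    have h1 := this _ le_rfl
    have h2 := Submodule.finrank_le (U (finrank Q V))
    omega
  have hst : ∀ j, ∀ w ∈ U J, D j w ∈ U J := by
    intro j w hw
    rw [← hJ]
    exact D_mem_nextU (U := U J) hw j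
  have h1 := hτ (U J) hst
  have h2 := hsum J
  have hmono' : ∀ j, U 0 ≤ U j := by
    intro j
    induction j with
    | zero => exact le_rfl
    | succ j ih => exact ih.trans (hmono j)
  have hpos2 : 0 < finrank K ((U J).restrictScalars K) := by
    have h3 : S ≤ (U J).restrictScalars K := by
      intro x hx
      exact hmono' J (Submodule.subset_span hx)
    exact lt_of_lt_of_le hS (Submodule.finrank_mono h3)
  have hpos3 : (0 : ℚ) < finrank K ((U J).restrictScalars K) := by exact_mod_cast hpos2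
  have h4 : σ - c1 - J * c0 ≤ τ := le_of_mul_le_mul_left (h2.trans h1) hpos3
  have h5 : (J : ℚ) + 1 ≤ finrank Q V := by exact_mod_cast hJR
  have h6 : (0 : ℚ) ≤ c0 := by positivity
  nlinarith

/-- (C5), abstract form. -/
theorem C5_abs (hW : Hilb W β γ) (B : ℚ) (hB : ∀ Y, β Y ≤ B)
    {ts : Finset Q} (hts : Submodule.span K (ts : Set Q) = ⊤)
    {c1 c0 : ℕ} (hdt : ∀ t ∈ ts, ∀ m, ∀ w ∈ W m, t • w ∈ W (m + c1))
    (hdD : ∀ j m, ∀ w ∈ W m, D j w ∈ W (m + c0)) {τ : ℚ}
    (hτ : ∀ U : Submodule Q V, (∀ j, ∀ w ∈ U, D j w ∈ U) →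
      ((finrank K V : ℚ) - finrank K (U.restrictScalars K)) * τ ≤ β ⊤ - β (U.restrictScalars K))
    (hleib : ∀ j (q : Q) (w : V), D j (q • w) = q • D j w + d j q • w)
    (Y : Submodule K V) :
    ((finrank K V : ℚ) - finrank K Y) * (τ - ((finrank Q V : ℚ) - 1) * c0 - c1) ≤ β ⊤ - β Y := by
  rcases Nat.eq_zero_or_pos (finrank K V) with h0 | hpos
  · have hY : Y = ⊥ := by
      apply Submodule.finrank_eq_zero.1
      exact Nat.le_zero.1 (h0 ▸ Submodule.finrank_le Y)
    have hT : (⊤ : Submodule K V) = ⊥ := by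
      apply Submodule.finrank_eq_zero.1
      exact Nat.le_zero.1 (h0 ▸ Submodule.finrank_le _)
    rw [hT, hY, hW.bot, finrank_bot, h0]
    simp
  obtain ⟨S, σ, hS, hσ, hmin⟩ := hW.exists_min B hB hpos
  suffices hfin : τ - ((finrank Q V : ℚ) - 1) * c0 - c1 ≤ σ by
    have h1 := hmin Y
    have h2 : (0 : ℚ) ≤ (finrank K V : ℚ) - finrank K Y := by
      have := Submodule.finrank_le Y
      have : (finrank K Y : ℚ) ≤ finrank K V := by exact_mod_cast this
      linarith
    nlinarith
  have hS0 : SB β S ⊤ σ := by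
    intro X _ _
    have := hmin X
    linarith
  set U := downChain hleib (coreQ Q S) with hU
  have hS1 : SB β ((U 0).restrictScalars K) ⊤ (σ + c1) := SB_core hW hts hdt hS0
  have hSB : ∀ j, SB β ((U (j + 1)).restrictScalars K) ((U j).restrictScalars K)
      (σ + c1 + (j + 1) * c0) := by
    intro j
    induction j with
    | zero =>
      have := SB_prev hleib hW (c0 := c0) hdD (Z1 := ⊤) (U := U 0) le_top (by
        intro j s hs
        trivial) hS1
      simp only [Int.cast_natCast] at this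
      have e : (σ + c1 + (((0 : ℕ) : ℚ) + 1) * c0 : ℚ) = σ + c1 + c0 := by push_cast; ring
      rw [e]
      exact this
    | succ j ih =>
      have := SB_prev hleib hW (c0 := c0) hdD (Z1 := (U j).restrictScalars K) (U := U (j + 1))
        (fun s hs => (show s ∈ prevU D d hleib (U j) from hs).1) (by
        intro i s hs
        exact (show s ∈ prevU D d hleib (U j) from hs).2 i) ih
      simp only [Int.cast_natCast] at this
      have e : (σ + c1 + (((j + 1 : ℕ) : ℚ) + 1) * c0 : ℚ) = σ + c1 + ((j : ℚ) + 1) * c0 + c0 := by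
        push_cast; ring
      rw [e]
      exact this
  have hanti : ∀ j, U (j + 1) ≤ U j :=
    fun j s hs => (show s ∈ prevU D d hleib (U j) from hs).1
  have hn : ∀ j : ℕ, (0 : ℚ) ≤ (finrank K V : ℚ) - finrank K ((U j).restrictScalars K) := by
    intro j
    have := Submodule.finrank_le ((U j).restrictScalars K)
    have : (finrank K ((U j).restrictScalars K) : ℚ) ≤ finrank K V := by exact_mod_cast this
    linarith
  have hsum : ∀ j : ℕ, β ⊤ - β ((U j).restrictScalars K) ≤
      ((finrank K V : ℚ) - finrank K ((U j).restrictScalars K)) * (σ + c1 + j * c0) := by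
    intro j
    induction j with
    | zero =>
      have h := hS1 ⊤ le_top le_rfl
      rw [finrank_top] at h
      simpa using h
    | succ j ih =>
      have h := hSB j ((U j).restrictScalars K) (hanti j) le_rfl
      have hle := finrank_restrict_le (K := K) (hanti j)
      have h0 := hn j
      have hc0 : (0 : ℚ) ≤ c0 := by positivity
      have := mul_nonneg h0 hc0
      push_cast
      nlinarith
  -- stabilisation
  have hU0 : finrank Q (U 0) < finrank Q V := by
    rcases (Submodule.finrank_le (U 0)).lt_or_eq with h | h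
    · exact h
    · exfalso
      have h1 : U 0 = ⊤ := Submodule.eq_top_of_finrank_eq h
      have h2 : S = ⊤ := by
        rw [eq_top_iff]
        intro x _
        have h3 : x ∈ U 0 := by rw [h1]; trivial
        have h4 : ∀ q : Q, q • x ∈ S := h3
        simpa using h4 1
      rw [h2, finrank_top] at hS
      exact lt_irrefl _ hS
  obtain ⟨J, hJR, hJ⟩ : ∃ J, J + 1 ≤ finrank Q V ∧ U (J + 1) = U J := by
    by_contra hcon
    push Not at hcon
    have : ∀ j, j ≤ finrank Q V → finrank Q (U j) + j + 1 ≤ finrank Q V := by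
      intro j
      induction j with
      | zero => intro _; exact hU0
      | succ j ih =>
        intro hj
        have h1 := ih (by omega)
        have h2 : U (j + 1) < U j := lt_of_le_of_ne (hanti j) (hcon j hj)
        have h3 := Submodule.finrank_lt_finrank_of_lt h2
        omega
    have h1 := this _ le_rfl
    omega
  have hst : ∀ j, ∀ w ∈ U J, D j w ∈ U J := by
    intro j w hw
    rw [← hJ] at hw
    exact (show w ∈ prevU D d hleib (U J) from hw).2 j
  have h1 := hτ (U J) hst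
  have h2 := hsum J
  have hanti' : ∀ j, U j ≤ U 0 := by
    intro j
    induction j with
    | zero => exact le_rfl
    | succ j ih => exact (hanti j).trans ih
  have hpos2 : finrank K ((U J).restrictScalars K) < finrank K V := by
    refine lt_of_le_of_lt (Submodule.finrank_mono ?_) hS
    intro x hx
    have h4 : ∀ q : Q, q • x ∈ S := hanti' J hx
    simpa using h4 1
  have hpos3 : (0 : ℚ) < (finrank K V : ℚ) - finrank K ((U J).restrictScalars K) := by
    have : (finrank K ((U J).restrictScalars K) : ℚ) < finrank K V := by exact_mod_cast hpos2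
    linarith
  have h4 : τ ≤ σ + c1 + J * c0 := le_of_mul_le_mul_left (h1.trans h2) hpos3
  have h5 : (J : ℚ) + 1 ≤ finrank Q V := by exact_mod_cast hJR
  have h6 : (0 : ℚ) ≤ c0 := by positivity
  nlinarith

end Chain

end Crest.Agent.R169.SL
end

-- ▼ part R169/C/Assemble
section

/-!
Row 169, Part C (helper461), C6: assembly of the upper bound `J(W) ≤ n/2 · s²` from (H), C4, C5
and P5.  The inputs C4, C5 (helper576), P1 (helper132), P5 (helper649) are hypotheses here; they are
discharged in `C/Main.lean`.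
-/

set_option autoImplicit false
set_option linter.unusedSectionVars false

namespace Crest.Agent.R169.PC

variable {k Q : Type} [Field k] [Field Q] [Algebra k Q]

/-- The hypotheses on a `T`-lattice `W` under which C4 and C5 hold: stable under derivations up to
the shift `c₀`, and (H) for derivation-stable `Q`-subspaces. -/
structure CHyp {D : TData k Q} {p c0 c1 : ℕ} (X : DerData D p c0 c1) {R : ℕ}
    (W : ℤ → Submodule k (Fin R → Q)) (n : ℕ) (b : ℚ) : Prop where
  tlat : IsTLat D W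
  hp : ∃ c : ℚ, HasHP W n b c
  der : ∀ j m, ∀ w ∈ W m, (fun i => X.d j (w i)) ∈ W (m + c0)
  slope : ∀ U : Submodule Q (Fin R → Q), DStable X U → ∀ (n₁ : ℕ) (b₁ c₁ : ℚ),
    HasHP (interU W U) n₁ b₁ c₁ → b₁ * n - n₁ * b ≤ (p / 2 : ℚ) * n₁ * (n - n₁)

/-- C4 (owner helper576) -/
def C4Stmt {D : TData k Q} {p c0 c1 : ℕ} (X : DerData D p c0 c1) : Prop :=
  ∀ (R : ℕ) (W : ℤ → Submodule k (Fin R → Q)) (n : ℕ) (b : ℚ), 0 < R → CHyp X W n b →
    ∀ Y : Submodule D.K0 (Fin R → Q), ∀ (n₁ : ℕ) (b₁ c₁ : ℚ), HasHP (interU W Y) n₁ b₁ c₁ →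
      b₁ * n - n₁ * b ≤ ((p : ℚ) / 2 + (R - 1) * c0 + c1) * n₁ * n

/-- C5 (owner helper576) -/
def C5Stmt {D : TData k Q} {p c0 c1 : ℕ} (X : DerData D p c0 c1) : Prop :=
  ∀ (R : ℕ) (W : ℤ → Submodule k (Fin R → Q)) (n : ℕ) (b : ℚ), 0 < R → CHyp X W n b →
    ∀ Y : Submodule D.K0 (Fin R → Q), ∀ (n₁ : ℕ) (b₁ c₁ : ℚ), HasHP (interU W Y) n₁ b₁ c₁ →
      b₁ * n - n₁ * b ≤ ((p : ℚ) / 2 + (R - 1) * c0 + c1) * (n - n₁) * n

/-- P1 for intersections with `Q`-subspaces -/
def P1Stmt (D : TData k Q) : Prop :=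
  ∀ (R : ℕ) (G : ℤ → Submodule k (Fin R → Q)), IsTLat D G → ∀ V' : Submodule Q (Fin R → Q),
    ∃ (n₁ : ℕ) (b₁ c₁ : ℚ), HasHP (interU G V') n₁ b₁ c₁

/-- P5 over `K₀` for families in `Q^R` -/
def P5Stmt (D : TData k Q) : Prop :=
  ∀ (R : ℕ) (E : ℤ → Submodule k (Fin R → Q)), IsLat D.u D.v E → ∀ (n : ℕ) (b c : ℚ),
    HasHP E n b c → 0 < n → ∀ s₁ s₂ : ℚ,
    (∀ (U : Submodule D.K0 (Fin R → Q)) (n₁ : ℕ) (b₁ c₁ : ℚ), HasHP (interU E U) n₁ b₁ c₁ →
      b₁ * n - n₁ * b ≤ s₁ * n₁ * n) →
    (∀ (U : Submodule D.K0 (Fin R → Q)) (n₁ : ℕ) (b₁ c₁ : ℚ), HasHP (interU E U) n₁ b₁ c₁ →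
      b₁ * n - n₁ * b ≤ s₂ * (n - n₁) * n) →
    Jinv n b c ≤ n / 2 * s₁ * s₂

/-- **(C6)** assembly. -/
theorem upperBound_of {D : TData k Q} {p N c0 c1 : ℕ} [Fact p.Prime] [CharP Q p]
    (X : DerData D p c0 c1) (hN : 0 < N) {bT : ℚ} (hC3 : C3 D p N bT) (hC4 : C4Stmt X)
    (hC5 : C5Stmt X) (hP1 : P1Stmt D) (hP5 : P5Stmt D) : UpperBound D p N c0 c1 := by
  intro R G hR hG b c b' c' hHP hNSS hW
  have hT : IsTLat D (frobPull D p G) := isTLat_frobPull D hG
  have hn : 0 < N * R := Nat.mul_pos hN hR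
  have hCH : CHyp X (frobPull D p G) (N * R) b' :=
    { tlat := hT
      hp := ⟨c', hW⟩
      der := fun j m w hw => frobPull_der X j m w hw
      slope := fun U hU n₁ b₁ c₁ h₁ => by
        have := hypH X hC3 hG hHP hNSS (hP1 R G hG) hW U hU n₁ b₁ c₁ h₁
        exact_mod_cast this }
  have h := hP5 R (frobPull D p G) hT.lat (N * R) b' c' hW hn
    ((p : ℚ) / 2 + (R - 1) * c0 + c1) ((p : ℚ) / 2 + (R - 1) * c0 + c1)
    (hC4 R _ (N * R) b' hR hCH) (hC5 R _ (N * R) b' hR hCH)
  refine h.trans (le_of_eq ?_)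
  push_cast
  ring

end Crest.Agent.R169.PC
end

-- ▼ part R169/C/SlopeEnd

/-! Row 169, part C: (C4), (C5) in the frozen form. -/

set_option autoImplicit false
set_option linter.unusedSectionVars false

namespace Crest.Agent.R169.SL

open Module Submodule Crest.Agent.R169.PC

section Bdd

variable {k K V : Type} [Field k] [Field K] [Algebra k K] [AddCommGroup V] [Module k V]
  [Module K V] [IsScalarTower k K V] [Module.Finite K V]
variable {W : ℤ → Submodule k V} {β γ : Submodule K V → ℚ}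

/-- complementary subspaces -/
lemma Hilb.add_le (hW : Hilb W β γ) {Y C : Submodule K V} (h : IsCompl Y C) :
    β Y + β C ≤ β ⊤ := by
  obtain ⟨m1, h1⟩ := hW.hp Y
  obtain ⟨m2, h2⟩ := hW.hp C
  obtain ⟨m3, h3⟩ := hW.hp ⊤
  have hr := Submodule.finrank_add_eq_of_isCompl h
  have hr' : (finrank K Y : ℚ) + finrank K C = finrank K V := by exact_mod_cast hr
  refine le_of_eventually_quad (r := finrank K V) (m₀ := max (max m1 m2) m3)
    (c₁ := γ Y + γ C) (c₂ := γ ⊤) ?_
  intro m hm
  have hm1 : m1 ≤ m := le_trans (le_max_left _ _) (le_trans (le_max_left _ _) hm)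
  have hm2 : m2 ≤ m := le_trans (le_max_right _ _) (le_trans (le_max_left _ _) hm)
  have hm3 : m3 ≤ m := le_trans (le_max_right _ _) hm
  have e1 := h1 m hm1
  have e2 := h2 m hm2
  have e3 := h3 m hm3
  have := hW.finite_interU Y m
  have := hW.finite_interU C m
  have := hW.finite_interU ⊤ m
  have hdis : interU W Y m ⊓ interU W C m = ⊥ := by
    rw [eq_bot_iff]
    rintro x ⟨⟨_, hx⟩, ⟨_, hx'⟩⟩
    have : x ∈ Y ⊓ C := ⟨hx, hx'⟩
    rw [h.inf_eq_bot] at this
    exact this
  have hle : interU W Y m ⊔ interU W C m ≤ interU W (⊤ : Submodule K V) m := by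
    refine sup_le ?_ ?_
    · rintro x ⟨hx, _⟩; exact ⟨hx, trivial⟩
    · rintro x ⟨hx, _⟩; exact ⟨hx, trivial⟩
  have h4 := Submodule.finrank_sup_add_finrank_inf_eq (interU W Y m) (interU W C m)
  rw [hdis, finrank_bot, add_zero] at h4
  have h5 := Submodule.finrank_mono hle
  rw [h4] at h5
  have h6 : (finrank k (interU W Y m) : ℚ) + finrank k (interU W C m)
    ≤ finrank k (interU W (⊤ : Submodule K V) m) := by exact_mod_cast h5
  rw [e1, e2, e3, finrank_top] at h6
  nlinarith [h6, hr']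

/-- every subspace has a complement spanned by part of a given basis -/
lemma exists_compl_of_basis {ι : Type*} [Fintype ι] (b : Basis ι K V) (Y : Submodule K V) :
    ∃ I : Finset ι, IsCompl Y (Submodule.span K (b '' (I : Set ι))) := by
  classical
  obtain ⟨I, hI⟩ : ∃ I : Set ι, Maximal (fun I : Set ι =>
      Disjoint Y (Submodule.span K (b '' I))) I := by
    have hfin : {I : Set ι | Disjoint Y (Submodule.span K (b '' I))}.Finite := Set.toFinite _
    exact hfin.exists_maximal ⟨∅, by simp⟩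
  refine ⟨I.toFinset, ?_⟩
  rw [Set.coe_toFinset]
  refine ⟨hI.1, ?_⟩
  rw [codisjoint_iff, eq_top_iff, ← b.span_eq, Submodule.span_le]
  rintro _ ⟨i, rfl⟩
  by_contra hi
  have hnot : i ∉ I := by
    intro h
    exact hi ((le_sup_right : _ ≤ Y ⊔ Submodule.span K (b '' I))
      (Submodule.subset_span ⟨i, h, rfl⟩))
  have hbig : Disjoint Y (Submodule.span K (b '' (insert i I))) := by
    rw [Set.image_insert_eq, Submodule.disjoint_def]
    intro x hxY hx
    rw [Submodule.mem_span_insert] at hx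
    obtain ⟨a, z, hz, rfl⟩ := hx
    by_cases ha : a = 0
    · subst ha
      rw [zero_smul, zero_add] at hxY ⊢
      exact (Submodule.disjoint_def.1 hI.1) z hxY hz
    · exfalso
      apply hi
      have h1 : b i = a⁻¹ • ((a • b i + z) - z) := by
        rw [add_sub_cancel_right, smul_smul, inv_mul_cancel₀ ha, one_smul]
      rw [SetLike.mem_coe, h1]
      refine Submodule.smul_mem _ _ (Submodule.sub_mem _ ?_ ?_)
      · exact (le_sup_left : Y ≤ _) hxY
      · exact (le_sup_right : _ ≤ Y ⊔ Submodule.span K (b '' I)) hz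
  have := hI.2 hbig (Set.subset_insert i I)
  exact hnot (this (Set.mem_insert i I))

/-- the linear coefficients are bounded above -/
lemma Hilb.bdd (hW : Hilb W β γ) : ∃ B, ∀ Y, β Y ≤ B := by
  classical
  let b := Module.finBasis K V
  refine ⟨∑ I : Finset (Fin (finrank K V)), |β ⊤ - β (Submodule.span K (b '' (I : Set _)))|, ?_⟩
  intro Y
  obtain ⟨I, hI⟩ := exists_compl_of_basis b Y
  have h1 := hW.add_le hI
  have h2 : |β ⊤ - β (Submodule.span K (b '' (I : Set _)))| ≤
      ∑ I : Finset (Fin (finrank K V)), |β ⊤ - β (Submodule.span K (b '' (I : Set _)))| :=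
    Finset.single_le_sum (f := fun I : Finset (Fin (finrank K V)) =>
      |β ⊤ - β (Submodule.span K (b '' (I : Set _)))|) (fun _ _ => abs_nonneg _)
      (Finset.mem_univ I)
  have h3 := le_abs_self (β ⊤ - β (Submodule.span K (b '' (I : Set (Fin (finrank K V))))))
  linarith

end Bdd

section Span

variable {k K V : Type} [Field k] [Field K] [Algebra k K] [AddCommGroup V] [Module k V]
  [Module K V] [IsScalarTower k K V] {u v : K} {W : ℤ → Submodule k V}

lemma lat_mono_of_le (hW : IsLat u v W) {i j : ℤ} (h : i ≤ j) : W i ≤ W j := by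
  obtain ⟨n, rfl⟩ := Int.le.dest h
  clear h
  induction n with
  | zero => simp
  | succ n ih =>
    refine ih.trans ?_
    have := hW.mono (i + n)
    push_cast
    rwa [← add_assoc]

/-- multiplication by polynomials in `u, v` -/
lemma lat_poly_smul (hW : IsLat u v W) {a : K} (ha : a ∈ Algebra.adjoin k ({u, v} : Set K)) :
    ∃ d : ℕ, ∀ m, ∀ w ∈ W m, a • w ∈ W (m + d) := by
  induction ha using Algebra.adjoin_induction with
  | mem x hx =>
    refine ⟨1, fun m w hw => ?_⟩
    rcases hx with rfl | hx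
    · exact hW.umul m w hw
    · rw [Set.mem_singleton_iff] at hx
      subst hx
      exact hW.vmul m w hw
  | algebraMap r =>
    refine ⟨0, fun m w hw => ?_⟩
    rw [algebraMap_smul]
    simpa using (W m).smul_mem r hw
  | add x y _ _ hx hy =>
    obtain ⟨d, hd⟩ := hx
    obtain ⟨e, he⟩ := hy
    refine ⟨d + e, fun m w hw => ?_⟩
    rw [add_smul]
    exact (W _).add_mem (lat_mono_of_le hW (by push_cast; linarith) (hd m w hw))
      (lat_mono_of_le hW (by push_cast; linarith) (he m w hw))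
  | mul x y _ _ hx hy =>
    obtain ⟨d, hd⟩ := hx
    obtain ⟨e, he⟩ := hy
    refine ⟨e + d, fun m w hw => ?_⟩
    rw [mul_smul]
    have := hd _ _ (he m w hw)
    push_cast
    rwa [← add_assoc]

/-- clearing denominators -/
lemma lat_clear (hK : IsRat k u v) (hW : IsLat u v W) {x : V} (hx : x ∈ spanK K W) :
    ∃ h ∈ Algebra.adjoin k ({u, v} : Set K), h ≠ 0 ∧ ∃ m, h • x ∈ W m := by
  unfold spanK at hx
  induction hx using Submodule.span_induction with
  | mem x hx =>
    obtain ⟨m, hm⟩ := Set.mem_iUnion.1 hx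
    exact ⟨1, Subalgebra.one_mem _, one_ne_zero, m, by simpa using hm⟩
  | zero => exact ⟨1, Subalgebra.one_mem _, one_ne_zero, 0, by simp⟩
  | add x y _ _ hx hy =>
    obtain ⟨h, hh, hh0, m, hm⟩ := hx
    obtain ⟨g, hg, hg0, n, hn⟩ := hy
    obtain ⟨d, hd⟩ := lat_poly_smul hW hg
    obtain ⟨e, he⟩ := lat_poly_smul hW hh
    refine ⟨g * h, Subalgebra.mul_mem _ hg hh, mul_ne_zero hg0 hh0, max (m + d) (n + e), ?_⟩
    rw [smul_add]
    refine (W _).add_mem (lat_mono_of_le hW (le_max_left _ _) ?_)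
      (lat_mono_of_le hW (le_max_right _ _) ?_)
    · rw [mul_smul]; exact hd m _ hm
    · rw [mul_comm, mul_smul]; exact he n _ hn
  | smul a x _ hx =>
    obtain ⟨h, hh, hh0, m, hm⟩ := hx
    have ha : a ∈ IntermediateField.adjoin k ({u, v} : Set K) := by rw [hK.top]; trivial
    rw [IntermediateField.mem_adjoin_iff_div] at ha
    obtain ⟨r, hr, s, hs, rfl⟩ := ha
    by_cases hs0 : s = 0
    · subst hs0
      exact ⟨1, Subalgebra.one_mem _, one_ne_zero, 0, by simp⟩
    · obtain ⟨d, hd⟩ := lat_poly_smul hW hr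
      refine ⟨s * h, Subalgebra.mul_mem _ hs hh, mul_ne_zero hs0 hh0, m + d, ?_⟩
      have : (s * h) • (r / s) • x = r • (h • x) := by
        rw [smul_smul, smul_smul]
        congr 1
        field_simp
      rw [this]
      exact hd m _ hm

/-- the span of an intersection -/
lemma spanK_interU (hK : IsRat k u v) (hW : IsLat u v W) (Y : Submodule K V)
    (hY : Y ≤ spanK K W) : spanK K (interU W Y) = Y := by
  apply le_antisymm
  · unfold spanK
    rw [Submodule.span_le]
    intro x hx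
    obtain ⟨m, hm⟩ := Set.mem_iUnion.1 hx
    exact hm.2
  · intro x hx
    obtain ⟨h, hh, hh0, m, hm⟩ := lat_clear hK hW (hY hx)
    have h1 : h • x ∈ spanK K (interU W Y) :=
      Submodule.subset_span (Set.mem_iUnion.2 ⟨m, hm, Y.smul_mem h hx⟩)
    have h2 := (spanK K (interU W Y)).smul_mem h⁻¹ h1
    rwa [smul_smul, inv_mul_cancel₀ hh0, one_smul] at h2

end Span

section TSpan

variable {k Q : Type} [Field k] [Field Q] [Algebra k Q] {D : TData k Q} {R : ℕ}
  {G : ℤ → Submodule k (Fin R → Q)}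

/-- a `T`-lattice spans over `K0` -/
lemma tlat_spanK0 {c1 : ℕ} (hspan : Submodule.span D.K0 (D.F c1 : Set Q) = ⊤)
    (hG : IsTLat D G) : spanK D.K0 G = ⊤ := by
  -- the `K0`-span is stable under `Q`
  have hact : ∀ q : Q, ∀ x ∈ spanK D.K0 G, q • x ∈ spanK D.K0 G := by
    intro q x hx
    have hq : q ∈ Submodule.span D.K0 (D.F c1 : Set Q) := by rw [hspan]; trivial
    induction hq using Submodule.span_induction with
    | mem f hf =>
      unfold spanK at hx ⊢
      induction hx using Submodule.span_induction with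
      | mem y hy =>
        obtain ⟨m, hm⟩ := Set.mem_iUnion.1 hy
        exact Submodule.subset_span (Set.mem_iUnion.2 ⟨_, hG.act c1 m f hf y hm⟩)
      | zero => rw [smul_zero]; exact Submodule.zero_mem _
      | add y z _ _ hy hz => rw [smul_add]; exact Submodule.add_mem _ hy hz
      | smul a y _ hy => rw [smul_comm]; exact Submodule.smul_mem _ a hy
    | zero => rw [zero_smul]; exact Submodule.zero_mem _
    | add f g _ _ hf hg => rw [add_smul]; exact Submodule.add_mem _ hf hg
    | smul a f _ hf => rw [smul_assoc]; exact Submodule.smul_mem _ a hf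
  rw [eq_top_iff]
  intro x _
  have hx : x ∈ spanK Q G := by rw [hG.full]; trivial
  unfold spanK at hx
  induction hx using Submodule.span_induction with
  | mem y hy => exact Submodule.subset_span hy
  | zero => exact Submodule.zero_mem _
  | add y z _ _ hy hz => exact Submodule.add_mem _ (hy trivial) (hz trivial)
  | smul a y _ hy => exact hact a _ (hy trivial)

/-- P1 over `K₀` for families in `Q^R` (owner of the proof: helper132) -/
def P1KStmt (D : TData k Q) : Prop :=
  ∀ (R : ℕ) (E : ℤ → Submodule k (Fin R → Q)), IsLat D.u D.v E →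
    ∀ Y : Submodule D.K0 (Fin R → Q), ∃ b c : ℚ,
      HasHP (interU E Y) (rk D.K0 (interU E Y)) b c

/-- `T`-lattices are `Hilb` families -/
lemma tlat_hilb {c1 : ℕ} (hspan : Submodule.span D.K0 (D.F c1 : Set Q) = ⊤)
    (hP : P1KStmt D) (hG : IsTLat D G) :
    ∃ β γ : Submodule D.K0 (Fin R → Q) → ℚ, Hilb G β γ := by
  choose β γ h using hP R G hG.lat
  refine ⟨β, γ, hG.lat.fin, fun Y => ?_⟩
  have h1 := h Y
  have h2 : rk D.K0 (interU G Y) = finrank D.K0 Y := by
    unfold rk
    rw [spanK_interU D.isRat (hG.lat' (D := D)) Y]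
    rw [tlat_spanK0 hspan hG]
    exact le_top
  rwa [h2] at h1

lemma finite_of_span {c1 : ℕ} (hspan : Submodule.span D.K0 (D.F c1 : Set Q) = ⊤) :
    ∃ ts : Finset Q, (∀ t ∈ ts, t ∈ D.F c1) ∧ Submodule.span D.K0 (ts : Set Q) = ⊤ := by
  have := D.lat.fin c1
  obtain ⟨s, hs⟩ := (Submodule.fg_iff_finiteDimensional (D.F c1)).2 this
  refine ⟨s, fun t ht => ?_, ?_⟩
  · rw [← hs]; exact Submodule.subset_span ht
  · rw [← hspan]
    apply le_antisymm
    · refine Submodule.span_mono ?_
      intro f hf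
      rw [SetLike.mem_coe, ← hs]
      exact Submodule.subset_span hf
    · refine Submodule.span_le.2 ?_
      intro f hf
      rw [SetLike.mem_coe, ← hs] at hf
      have h4 : Submodule.span k (s : Set Q)
          ≤ (Submodule.span D.K0 (s : Set Q)).restrictScalars k :=
        Submodule.span_le.2 Submodule.subset_span
      exact h4 hf

/-- coordinatewise derivation as an additive map -/
def vecD {p c0 c1 : ℕ} (X : DerData D p c0 c1) (R : ℕ) (j : Fin 2) :
    (Fin R → Q) →+ (Fin R → Q) where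
  toFun w := fun i => X.d j (w i)
  map_zero' := by funext i; simp
  map_add' a b := by funext i; simp

/-- the derivation as an additive map -/
def addD {p c0 c1 : ℕ} (X : DerData D p c0 c1) (j : Fin 2) : Q →+ Q where
  toFun q := X.d j q
  map_zero' := by simp
  map_add' a b := by simp

lemma vecD_leib {p c0 c1 : ℕ} (X : DerData D p c0 c1) (j : Fin 2) (q : Q) (w : Fin R → Q) :
    vecD X R j (q • w) = q • vecD X R j w + addD X j q • w := by
  funext i
  simp only [vecD, addD, AddMonoidHom.coe_mk, ZeroHom.coe_mk, Pi.smul_apply, Pi.add_apply,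
    smul_eq_mul, Derivation.leibniz]
  ring

lemma interU_restrict (W : ℤ → Submodule k (Fin R → Q)) (U : Submodule Q (Fin R → Q)) :
    interU W (U.restrictScalars D.K0) = interU W U := by
  funext m
  rfl

lemma slope_aux1 {bU n r b p : ℚ} (hn0 : 0 < n) (hr0 : 0 ≤ r) (hp0 : 0 ≤ p)
    (hs : bU * n - r * b ≤ p / 2 * r * (n - r)) : bU ≤ r * (b / n + p / 2) := by
  have h1 : bU * n ≤ (r * (b / n + p / 2)) * n := by
    have e : r * (b / n + p / 2) * n = r * b + (p / 2 : ℚ) * r * n := by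
      field_simp
    rw [e]
    nlinarith [mul_nonneg (mul_nonneg hp0 hr0) hr0]
  exact le_of_mul_le_mul_right h1 hn0

lemma slope_aux2 {bU n r b p : ℚ} (hn0 : 0 < n) (hr : r ≤ n) (hp0 : 0 ≤ p)
    (hs : bU * n - r * b ≤ p / 2 * r * (n - r)) : (n - r) * (b / n - p / 2) ≤ b - bU := by
  have h1 : ((n - r) * (b / n - p / 2)) * n ≤ (b - bU) * n := by
    have e : (n - r) * (b / n - p / 2) * n = (n - r) * b - (p / 2 : ℚ) * (n - r) * n := by
      field_simp
    rw [e]
    nlinarith [mul_nonneg (mul_nonneg hp0 (sub_nonneg.2 hr)) (sub_nonneg.2 hr)]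
  exact le_of_mul_le_mul_right h1 hn0

lemma slope_aux3 {bY n r b p s : ℚ} (hn0 : 0 < n) (h : bY ≤ r * (b / n + p / 2 + s)) :
    bY * n - r * b ≤ (p / 2 + s) * r * n := by
  have h2 := mul_le_mul_of_nonneg_right h hn0.le
  have e : r * (b / n + p / 2 + s) * n = r * b + (p / 2 + s) * r * n := by
    field_simp
    ring
  rw [e] at h2
  linarith

lemma slope_aux4 {bY n r b p s : ℚ} (hn0 : 0 < n) (h : (n - r) * (b / n - p / 2 - s) ≤ b - bY) :
    bY * n - r * b ≤ (p / 2 + s) * (n - r) * n := by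
  have h2 := mul_le_mul_of_nonneg_right h hn0.le
  have e : (n - r) * (b / n - p / 2 - s) * n = (n - r) * b - (p / 2 + s) * (n - r) * n := by
    field_simp
    ring
  rw [e] at h2
  linarith

variable {p c0 c1 : ℕ} {X : DerData D p c0 c1} {W : ℤ → Submodule k (Fin R → Q)}

lemma finite_Q {c1 : ℕ} (hspan : Submodule.span D.K0 (D.F c1 : Set Q) = ⊤) :
    Module.Finite D.K0 Q := by
  obtain ⟨ts, _, hts⟩ := finite_of_span hspan
  exact ⟨⟨ts, hts⟩⟩

/-- (C4) in the frozen form, modulo P1. -/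
theorem c4Stmt_of (X : DerData D p c0 c1) (hP : P1KStmt D) : C4Stmt X := by
  intro R W n b hR hC Y n₁ b₁ c₁ h₁
  have hspan : Submodule.span D.K0 (D.F c1 : Set Q) = ⊤ := spanK0_F D c1 X.gen
  have := finite_Q hspan
  obtain ⟨β, γ, hW⟩ := tlat_hilb hspan hP hC.tlat
  obtain ⟨B, hB⟩ := hW.bdd
  obtain ⟨ts, hts1, hts2⟩ := finite_of_span hspan
  obtain ⟨c, hc⟩ := hC.hp
  have htop := hW.hp ⊤
  rw [interU_top, finrank_top] at htop
  obtain ⟨hn, hb, _⟩ := hasHP_unique hc htop
  obtain ⟨hn₁, hb₁, _⟩ := hasHP_unique h₁ (hW.hp Y)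
  have hV : 0 < finrank D.K0 (Fin R → Q) := by
    have : Nonempty (Fin R) := ⟨⟨0, hR⟩⟩
    exact Module.finrank_pos
  have hn0 : (0 : ℚ) < n := by rw [hn]; exact_mod_cast hV
  have hmain := C4_abs (k := k) (Q := Q) (D := vecD X R) (d := addD X) (vecD_leib X)
    hW B hB hts2 (c1 := c1) (c0 := c0)
    (fun t ht m w hw => by
      have := hC.tlat.act c1 m t (hts1 t ht) w hw
      rwa [add_comm] at this)
    (fun j m w hw => hC.der j m w hw) (τ := b / n + p / 2)
    (fun U hU => by
      have h := hW.hp (U.restrictScalars D.K0)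
      rw [interU_restrict (D := D)] at h
      have hs := hC.slope U (fun j w hw => hU j w hw) _ _ _ h
      exact slope_aux1 hn0 (Nat.cast_nonneg _) (Nat.cast_nonneg _) hs) Y
  have hfr : (finrank Q (Fin R → Q) : ℚ) = R := by simp
  rw [hfr, add_assoc] at hmain
  rw [hb₁, hn₁]
  have := slope_aux3 hn0 hmain
  rwa [← add_assoc] at this

/-- (C5) in the frozen form, modulo P1. -/
theorem c5Stmt_of (X : DerData D p c0 c1) (hP : P1KStmt D) : C5Stmt X := by
  intro R W n b hR hC Y n₁ b₁ c₁ h₁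
  have hspan : Submodule.span D.K0 (D.F c1 : Set Q) = ⊤ := spanK0_F D c1 X.gen
  have := finite_Q hspan
  obtain ⟨β, γ, hW⟩ := tlat_hilb hspan hP hC.tlat
  obtain ⟨B, hB⟩ := hW.bdd
  obtain ⟨ts, hts1, hts2⟩ := finite_of_span hspan
  obtain ⟨c, hc⟩ := hC.hp
  have htop := hW.hp ⊤
  rw [interU_top, finrank_top] at htop
  obtain ⟨hn, hb, _⟩ := hasHP_unique hc htop
  obtain ⟨hn₁, hb₁, _⟩ := hasHP_unique h₁ (hW.hp Y)
  have hV : 0 < finrank D.K0 (Fin R → Q) := by
    have : Nonempty (Fin R) := ⟨⟨0, hR⟩⟩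
    exact Module.finrank_pos
  have hn0 : (0 : ℚ) < n := by rw [hn]; exact_mod_cast hV
  have hnV : (finrank D.K0 (Fin R → Q) : ℚ) = n := by exact_mod_cast hn.symm
  have hmain := C5_abs (k := k) (Q := Q) (D := vecD X R) (d := addD X)
    hW B hB hts2 (c1 := c1) (c0 := c0)
    (fun t ht m w hw => by
      have := hC.tlat.act c1 m t (hts1 t ht) w hw
      rwa [add_comm] at this)
    (fun j m w hw => hC.der j m w hw) (τ := b / n - p / 2)
    (fun U hU => by
      have h := hW.hp (U.restrictScalars D.K0)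
      rw [interU_restrict (D := D)] at h
      have hs := hC.slope U (fun j w hw => hU j w hw) _ _ _ h
      rw [hnV, ← hb]
      refine slope_aux2 hn0 ?_ (Nat.cast_nonneg _) hs
      rw [← hnV]
      exact_mod_cast Submodule.finrank_le (U.restrictScalars D.K0)) (vecD_leib X) Y
  have hfr : (finrank Q (Fin R → Q) : ℚ) = R := by simp
  rw [hfr, hnV, ← hb, sub_sub (b / n - p / 2 : ℚ)] at hmain
  rw [hb₁, hn₁]
  have := slope_aux4 hn0 hmain
  rwa [← add_assoc] at this

end TSpan

end Crest.Agent.R169.SL
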